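import Mathlib

/-!
A separable infinite-dimensional quotient from a norm-unbounded sequence of functionals which is
pointwise bounded on a dense subspace.
-/

namespace Vale.Agent.P129

open Filter Topology TopologicalSpace

variable {𝕜 : Type*} [RCLike 𝕜] {X : Type*} [NormedAddCommGroup X] [NormedSpace 𝕜 X]

/-- The space has a separable infinite-dimensional quotient by a closed subspace. -/
def HasSQ (𝕜 : Type*) [RCLike 𝕜] (X : Type*) [NormedAddCommGroup X] [NormedSpace 𝕜 X] : Prop :=
  ∃ M : Submodule 𝕜 X, IsClosed (M : Set X) ∧ SeparableSpace (X ⧸ M) ∧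
    ¬ FiniteDimensional 𝕜 (X ⧸ M)

/-- The data carried along the greedy construction. -/
structure GreedyState (h : ℕ → StrongDual 𝕜 X) (E : Submodule 𝕜 X) where
  R : X →L[𝕜] X
  D : ℝ
  D_nonneg : 0 ≤ D
  close : ∀ k, ‖(h k).comp R - h k‖ ≤ D
  maps : ∀ x ∈ E, R x ∈ E

theorem greedy_step {h : ℕ → StrongDual 𝕜 X} {E : Submodule 𝕜 X}
    (hn : Tendsto (fun k => ‖h k‖) atTop atTop) (hE : Dense (E : Set X))
    (S : GreedyState h E) {δ : ℝ} (hδ : 0 < δ) :
    ∃ k : ℕ, ∃ x ∈ E, x ∈ Set.range S.R ∧ h k x = 1 ∧ ‖x‖ ≤ δ := by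
  set L : ℝ := (‖S.R‖ + 1) / δ with hL
  have hL0 : 0 < L := by positivity
  obtain ⟨k, hk⟩ := (hn.eventually (eventually_gt_atTop (L + S.D))).exists
  set g : StrongDual 𝕜 X := (h k).comp S.R with hg
  have hgn : L < ‖g‖ := by
    have h1 : ‖h k‖ ≤ ‖g‖ + ‖g - h k‖ := by
      calc ‖h k‖ = ‖g - (g - h k)‖ := by simp
        _ ≤ _ := norm_sub_le _ _
    have := S.close k
    linarith
  have : ∃ y ∈ E, L * ‖y‖ < ‖g y‖ := by
    by_contra hcon
    push Not at hcon
    have : ∀ y, ‖g y‖ ≤ L * ‖y‖ := fun y =>
      le_on_closure (f := fun y => ‖g y‖) (g := fun y => L * ‖y‖) (fun z hz => hcon z hz)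
        g.continuous.norm.continuousOn (continuous_const.mul continuous_norm).continuousOn
        (hE y)
    exact absurd (g.opNorm_le_bound hL0.le this) (not_le.2 hgn)
  obtain ⟨y, hyE, hy⟩ := this
  have hgy : 0 < ‖g y‖ := lt_of_le_of_lt (by positivity) hy
  refine ⟨k, (g y)⁻¹ • S.R y, E.smul_mem _ (S.maps y hyE), ⟨(g y)⁻¹ • y, by simp⟩, ?_, ?_⟩
  · rw [map_smul, smul_eq_mul]
    exact inv_mul_cancel₀ (norm_pos_iff.1 hgy)
  · rw [norm_smul, norm_inv, inv_mul_le_iff₀ hgy]
    calc ‖S.R y‖ ≤ (‖S.R‖ + 1) * ‖y‖ :=
          (S.R.le_opNorm y).trans (mul_le_mul_of_nonneg_right (by linarith) (norm_nonneg y))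
      _ = δ * (L * ‖y‖) := by rw [hL]; field_simp
      _ ≤ δ * ‖g y‖ := mul_le_mul_of_nonneg_left hy.le hδ.le
      _ = ‖g y‖ * δ := mul_comm _ _

theorem hasSQ_of_unbounded [CompleteSpace X] (h : ℕ → StrongDual 𝕜 X)
    (hn : Tendsto (fun k => ‖h k‖) atTop atTop) (E : Submodule 𝕜 X) (hE : Dense (E : Set X))
    (hb : ∀ x ∈ E, ∃ C, ∀ k, ‖h k x‖ ≤ C) : HasSQ 𝕜 X := by
  have hx : ∀ (S : GreedyState h E) (n : ℕ), ∃ k : ℕ, ∃ x ∈ E,
      x ∈ Set.range S.R ∧ h k x = 1 ∧ ‖x‖ ≤ (1 / 2) ^ n / (1 + S.D) := fun S n =>
    greedy_step hn hE S (div_pos (by positivity) (by linarith [S.D_nonneg]))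
  choose K V hVE hVR hV1 hVn using hx
  choose B hB using fun (S : GreedyState h E) (n : ℕ) => hb (V S n) (hVE S n)
  let next : GreedyState h E → ℕ → GreedyState h E := fun S n =>
    { R := S.R - ((h (K S n)).comp S.R).smulRight (V S n)
      D := S.D + max (B S n) 0 * ‖(h (K S n)).comp S.R‖
      D_nonneg := by have := S.D_nonneg; positivity
      close := by
        intro k
        have e : (h k).comp (S.R - ((h (K S n)).comp S.R).smulRight (V S n)) - h k
            = ((h k).comp S.R - h k) - (h k (V S n)) • (h (K S n)).comp S.R := by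
          ext z
          simp [map_smul]
          ring
        rw [e]
        refine (norm_sub_le _ _).trans (add_le_add (S.close k) ?_)
        rw [norm_smul]
        exact mul_le_mul_of_nonneg_right ((hB S n k).trans (le_max_left _ _)) (norm_nonneg _)
      maps := by
        intro z hz
        simp only [FunLike.coe_sub, Pi.sub_apply,
          ContinuousLinearMap.smulRight_apply]
        exact E.sub_mem (S.maps z hz) (E.smul_mem _ (hVE S n)) }
  let start : GreedyState h E :=
    { R := ContinuousLinearMap.id 𝕜 X, D := 0, D_nonneg := le_rfl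
      close := fun k => by simp, maps := fun z hz => hz }
  let st : ℕ → GreedyState h E := fun n => Nat.rec start (fun m S => next S m) n
  let g : ℕ → StrongDual 𝕜 X := fun n => h (K (st n) n)
  let v : ℕ → X := fun n => V (st n) n
  let c : ℕ → X → 𝕜 := fun n z => g n ((st n).R z)
  have hsucc : ∀ n z, (st (n + 1)).R z = (st n).R z - c n z • v n := fun n z => by
    simp [st, next, c, g, v]
  have hzero : ∀ n i, i < n → ∀ z, g i ((st n).R z) = 0 := by
    intro n
    induction n with
    | zero => intro i hi; omega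
    | succ n ih =>
      intro i hi z
      rw [hsucc, map_sub, map_smul, smul_eq_mul]
      rcases Nat.lt_succ_iff_lt_or_eq.1 hi with hlt | rfl
      · obtain ⟨w, hw⟩ := hVR (st n) n
        have : g i (v n) = 0 := by
          show g i (V (st n) n) = 0
          rw [← hw]; exact ih i hlt w
        rw [ih i hlt z, this, mul_zero, sub_zero]
      · have : g i (v i) = 1 := hV1 (st i) i
        rw [this, mul_one]
        exact sub_self _
  have hgv : ∀ i j, i < j → g i (v j) = 0 := fun i j hij => by
    obtain ⟨w, hw⟩ := hVR (st j) j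
    show g i (V (st j) j) = 0
    rw [← hw]; exact hzero j i hij w
  have hgv1 : ∀ i, g i (v i) = 1 := fun i => hV1 (st i) i
  have hsum : ∀ n z, (st n).R z = z - ∑ i ∈ Finset.range n, c i z • v i := by
    intro n z
    induction n with
    | zero => simp [st, start]
    | succ n ih => rw [hsucc, Finset.sum_range_succ, ih, sub_sub]
  let M : Submodule 𝕜 X := ⨅ n, (g n : X →ₗ[𝕜] 𝕜).ker
  have hMmem : ∀ z, z ∈ M ↔ ∀ n, g n z = 0 := fun z => by
    simp [M, Submodule.mem_iInf]
  refine ⟨M, ?_, ?_, ?_⟩
  · have : (M : Set X) = ⋂ n, {z | g n z = 0} := by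
      ext z; simp [hMmem]
    rw [this]
    exact isClosed_iInter fun n => isClosed_eq (g n).continuous continuous_const
  · let q : X →ₗ[𝕜] X ⧸ M := M.mkQ
    have hq : Continuous q := continuous_quot_mk
    set T : Set (X ⧸ M) := closure (Submodule.span 𝕜 (Set.range fun i => q (v i)) : Set (X ⧸ M))
      with hT
    have hsepT : IsSeparable T := (Set.countable_range _).isSeparable.span.closure
    have hET : ∀ z ∈ E, q z ∈ T := by
      intro z hz
      obtain ⟨C, hC⟩ := hb z hz
      have hC0 : 0 ≤ C := le_trans (norm_nonneg _) (hC 0)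
      have hbound : ∀ n, ‖c n z • v n‖ ≤ (C + ‖z‖) * (1 / 2 : ℝ) ^ n := by
        intro n
        have hD := (st n).D_nonneg
        have h1 : ‖c n z‖ ≤ (C + ‖z‖) * (1 + (st n).D) := by
          have e : c n z = g n z + ((h (K (st n) n)).comp (st n).R - g n) z := by
            simp [c, g]
          rw [e]
          refine (norm_add_le _ _).trans ?_
          have h2 : ‖((h (K (st n) n)).comp (st n).R - g n) z‖ ≤ (st n).D * ‖z‖ :=
            (ContinuousLinearMap.le_opNorm _ _).trans
              (mul_le_mul_of_nonneg_right ((st n).close _) (norm_nonneg _))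
          have h3 : ‖g n z‖ ≤ C := hC _
          nlinarith [norm_nonneg z]
        rw [norm_smul]
        calc ‖c n z‖ * ‖v n‖ ≤ (C + ‖z‖) * (1 + (st n).D) * ((1 / 2) ^ n / (1 + (st n).D)) :=
              mul_le_mul h1 (hVn (st n) n) (norm_nonneg _) (by positivity)
          _ = _ := by field_simp
      have hs : Summable fun n => c n z • v n :=
        Summable.of_norm_bounded (summable_geometric_two.mul_left _) hbound
      set w := ∑' n, c n z • v n
      have hlim : Tendsto (fun n => (st n).R z) atTop (𝓝 (z - w)) := by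
        simp only [hsum]
        exact tendsto_const_nhds.sub hs.hasSum.tendsto_sum_nat
      have hker : z - w ∈ M := by
        rw [hMmem]
        intro i
        refine tendsto_nhds_unique ((g i).continuous.continuousAt.tendsto.comp hlim) ?_
        exact tendsto_atTop_of_eventually_const (i₀ := i + 1) fun n hn =>
          hzero n i (by omega) z
      have hqz : q z = q w := (Submodule.Quotient.eq M).2 hker
      rw [hqz]
      refine mem_closure_of_tendsto
        ((hq.tendsto w).comp hs.hasSum.tendsto_sum_nat) (Eventually.of_forall fun n => ?_)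
      simp only [Function.comp_apply, map_sum, map_smul]
      exact Submodule.sum_mem _ fun i _ =>
        Submodule.smul_mem _ _ (Submodule.subset_span ⟨i, rfl⟩)
    have huniv : T = Set.univ := by
      refine Set.eq_univ_of_forall fun y => ?_
      obtain ⟨z, rfl⟩ := M.mkQ_surjective y
      have : q '' closure (E : Set X) ⊆ closure T :=
        (image_closure_subset_closure_image hq).trans
          (closure_mono (Set.image_subset_iff.2 hET))
      have h' := this ⟨z, hE z, rfl⟩
      rwa [hT, closure_closure] at h'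
    exact isSeparable_univ_iff.1 (huniv ▸ hsepT)
  · intro hfin
    have hli : LinearIndependent 𝕜 fun i => M.mkQ (v i) := by
      rw [linearIndependent_iff']
      intro s a ha
      simp only [← map_smul, ← map_sum] at ha
      rw [Submodule.mkQ_apply, Submodule.Quotient.mk_eq_zero, hMmem] at ha
      intro i
      induction i using Nat.strong_induction_on with
      | _ i ih =>
        intro hi
        have := ha i
        rw [map_sum, Finset.sum_eq_single i] at this
        · rwa [map_smul, hgv1, smul_eq_mul, mul_one] at this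
        · intro j hj hne
          rcases lt_or_gt_of_ne hne with hlt | hgt
          · rw [ih j hlt hj, zero_smul, map_zero]
          · rw [map_smul, hgv i j hgt, smul_zero]
        · exact fun hni => absurd hi hni
    have := hli.finite
    exact not_finite ℕ

end Vale.Agent.P129
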