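import Mathlib

/-!
Simons' lemma: a uniformly bounded sequence of continuous functions on a compact space whose
pointwise upper limit is at most `s` has a convex combination which is uniformly at most `s + ε`.
-/

namespace Vale.Agent.P129

open Filter Topology

theorem simons {T : Type*} [TopologicalSpace T] [CompactSpace T] [Nonempty T]
    (f : ℕ → C(T, ℝ)) (B : ℝ) (hB : ∀ n, ‖f n‖ ≤ B) (s : ℝ)
    (hs : ∀ t, ∀ ε > 0, ∀ᶠ n in atTop, f n t ≤ s + ε) {ε : ℝ} (hε : 0 < ε) :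
    ∃ g ∈ convexHull ℝ (Set.range f), ∀ t, g t ≤ s + ε := by
  set η := ε / 8 with hη
  have hη0 : 0 < η := by positivity
  let C : ℕ → Set C(T, ℝ) := fun n => convexHull ℝ (f '' Set.Ici n)
  have hCanti : ∀ n, C (n + 1) ⊆ C n := fun n =>
    convexHull_mono (Set.image_mono (Set.Ici_subset_Ici.2 (Nat.le_succ n)))
  have hmemC : ∀ n m, n ≤ m → f m ∈ C n := fun n m h => subset_convexHull ℝ _ ⟨m, h, rfl⟩
  have hCB : ∀ n, ∀ g ∈ C n, ‖g‖ ≤ B := fun n g hg => by
    have h : C n ⊆ Metric.closedBall 0 B :=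
      convexHull_min (by rintro _ ⟨m, -, rfl⟩; simpa using hB m) (convex_closedBall 0 B)
    simpa using h hg
  have hB0 : 0 ≤ B := (norm_nonneg _).trans (hB 0)
  let σ : C(T, ℝ) → ℝ := fun g => ⨆ t, g t
  have hbdd : ∀ g : C(T, ℝ), BddAbove (Set.range g) := fun g =>
    (isCompact_range g.continuous).bddAbove
  have pick : ∀ (n : ℕ) (w : C(T, ℝ)), ∃ g ∈ C n, ∀ g' ∈ C n,
      σ (w + (1 / 2 : ℝ) ^ n • g) ≤ σ (w + (1 / 2 : ℝ) ^ n • g') + (1 / 4 : ℝ) ^ n * η := by
    intro n w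
    set V := (fun g => σ (w + (1 / 2 : ℝ) ^ n • g)) '' C n
    have hne : V.Nonempty := ⟨_, f n, hmemC n n le_rfl, rfl⟩
    obtain ⟨t₀⟩ := (inferInstance : Nonempty T)
    have hbelow : BddBelow V := by
      refine ⟨w t₀ - (1 / 2 : ℝ) ^ n * B, ?_⟩
      rintro _ ⟨g, hg, rfl⟩
      refine le_trans ?_ (le_ciSup (hbdd _) t₀)
      have h1 := (g.norm_coe_le_norm t₀).trans (hCB n g hg)
      rw [Real.norm_eq_abs] at h1
      have h2 : 0 ≤ (1 / 2 : ℝ) ^ n := by positivity
      simp only [ContinuousMap.add_apply, ContinuousMap.smul_apply, smul_eq_mul]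
      nlinarith [(abs_le.1 h1).1]
    obtain ⟨_, ⟨g, hg, rfl⟩, hlt⟩ :=
      exists_lt_of_csInf_lt hne (lt_add_of_pos_right (sInf V) (show 0 < (1 / 4 : ℝ) ^ n * η by positivity))
    refine ⟨g, hg, fun g' hg' => ?_⟩
    have := csInf_le hbelow ⟨g', hg', rfl⟩
    linarith
  choose G hGmem hG using pick
  let u : ℕ → C(T, ℝ) := fun n =>
    Nat.rec 0 (fun m w => w + (1 / 2 : ℝ) ^ (m + 1) • G m w) n
  let g : ℕ → C(T, ℝ) := fun n => G n (u n)
  have husucc : ∀ n, u (n + 1) = u n + (1 / 2 : ℝ) ^ (n + 1) • g n := fun n => rfl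
  have hgB : ∀ n, ‖g n‖ ≤ B := fun n => hCB n _ (hGmem n _)
  have hsum : Summable fun n => (1 / 2 : ℝ) ^ (n + 1) • g n := by
    refine Summable.of_norm_bounded (summable_geometric_two.mul_left B) fun n => ?_
    rw [norm_smul, Real.norm_of_nonneg (by positivity), mul_comm B]
    refine mul_le_mul ?_ (hgB n) (norm_nonneg _) (by positivity)
    exact pow_le_pow_of_le_one (by norm_num) (by norm_num) (Nat.le_succ n)
  have hpart : ∀ n, u n = ∑ i ∈ Finset.range n, (1 / 2 : ℝ) ^ (i + 1) • g i := by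
    intro n
    induction n with
    | zero => rfl
    | succ n ih => rw [husucc, Finset.sum_range_succ, ih]
  set U := ∑' n, (1 / 2 : ℝ) ^ (n + 1) • g n
  have hU : Tendsto u atTop (𝓝 U) := by
    simp only [funext hpart]
    exact hsum.hasSum.tendsto_sum_nat
  have comb : ∀ N n, ∃ g' ∈ C n,
      u n + (1 / 2 : ℝ) ^ n • g' = u (n + N) + (1 / 2 : ℝ) ^ (n + N) • f (n + N) := by
    intro N
    induction N with
    | zero => intro n; exact ⟨f n, hmemC n n le_rfl, rfl⟩
    | succ N ih =>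
      intro n
      obtain ⟨g', hg', he⟩ := ih (n + 1)
      refine ⟨(1 / 2 : ℝ) • g n + (1 / 2 : ℝ) • g', convex_convexHull ℝ _ (hGmem n _)
        (hCanti n hg') (by norm_num) (by norm_num) (by norm_num), ?_⟩
      rw [show n + (N + 1) = n + 1 + N by ring, ← he, husucc, smul_add, smul_smul, smul_smul,
        pow_succ]
      abel
  obtain ⟨b, -, hb⟩ := isCompact_univ.exists_isMaxOn Set.univ_nonempty U.continuous.continuousOn
  have hbmax : ∀ t, U t ≤ U b := fun t => hb (Set.mem_univ t)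
  have hlim : ∀ n, Tendsto (fun N => u (n + N) + (1 / 2 : ℝ) ^ (n + N) • f (n + N)) atTop (𝓝 U) := by
    intro n
    have h1 : Tendsto (fun m => u m + (1 / 2 : ℝ) ^ m • f m) atTop (𝓝 (U + 0)) := by
      refine hU.add (squeeze_zero_norm (a := fun m => (1 / 2 : ℝ) ^ m * B) (fun m => ?_) ?_)
      · rw [norm_smul, Real.norm_of_nonneg (by positivity)]
        exact mul_le_mul_of_nonneg_left (hB m) (by positivity)
      · simpa using (tendsto_pow_atTop_nhds_zero_of_lt_one (by norm_num : (0 : ℝ) ≤ 1 / 2)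
          (by norm_num)).mul_const B
    rw [add_zero] at h1
    exact h1.comp (tendsto_atTop_mono (fun N => Nat.le_add_left N n) tendsto_id)
  have hkey : ∀ n, u n b + (1 / 2 : ℝ) ^ n * g n b ≤ U b + (1 / 4 : ℝ) ^ n * η := by
    intro n
    refine le_of_forall_pos_le_add fun δ hδ => ?_
    obtain ⟨N, hN⟩ := Metric.tendsto_atTop.1 (hlim n) δ hδ
    obtain ⟨g', hg', he⟩ := comb N n
    have h1 := hN N le_rfl
    rw [← he, dist_eq_norm] at h1
    have h2 : σ (u n + (1 / 2 : ℝ) ^ n • g') ≤ U b + δ := ciSup_le fun t => by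
      have h3 := (((u n + (1 / 2 : ℝ) ^ n • g') - U).norm_coe_le_norm t).trans h1.le
      rw [ContinuousMap.sub_apply, Real.norm_eq_abs] at h3
      linarith [(abs_le.1 h3).2, hbmax t]
    have h4 := le_ciSup (hbdd (u n + (1 / 2 : ℝ) ^ n • g n)) b
    have h5 := hG n (u n) g' hg'
    have h6 : (u n + (1 / 2 : ℝ) ^ n • G n (u n)) b ≤ U b + δ + (1 / 4 : ℝ) ^ n * η := by
      change _ ≤ _ at h4 h5 h2
      have h4' : (u n + (1 / 2 : ℝ) ^ n • G n (u n)) b ≤ σ (u n + (1 / 2 : ℝ) ^ n • G n (u n)) := h4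
      linarith
    simp only [g, ContinuousMap.add_apply, ContinuousMap.smul_apply, smul_eq_mul] at h6 ⊢
    linarith
  let τ : ℕ → ℝ := fun n => 2 ^ n * (U b - u n b)
  have hstep : ∀ n, τ n ≤ τ (n + 1) + (1 / 2 : ℝ) ^ n * η := by
    intro n
    have e : u (n + 1) b = u n b + (1 / 2 : ℝ) ^ n * (1 / 2) * g n b := by
      simp [husucc, pow_succ]
    have h := hkey n
    have e2 : (2 : ℝ) ^ n * (1 / 2) ^ n = 1 := by rw [← mul_pow]; norm_num
    have e3 : (2 : ℝ) ^ n * (1 / 4) ^ n = (1 / 2) ^ n := by rw [← mul_pow]; norm_num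
    have h' := mul_le_mul_of_nonneg_left h (show (0 : ℝ) ≤ 2 ^ n by positivity)
    simp only [τ, e, pow_succ]
    linear_combination h' + 0 * e2 + (η) * e3 + 0 * η
  have htel : ∀ n, τ 0 ≤ τ n + 2 * η * (1 - (1 / 2 : ℝ) ^ n) := by
    intro n
    induction n with
    | zero => simp
    | succ n ih => rw [pow_succ]; nlinarith [hstep n]
  obtain ⟨n₀, hn₀⟩ := eventually_atTop.1 (hs b η hη0)
  have hτ : τ n₀ ≤ s + η := by
    have hC : ∀ g' ∈ C n₀, g' b ≤ s + η := by
      intro g' hg'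
      have hconv : Convex ℝ {g : C(T, ℝ) | g b ≤ s + η} :=
        convex_halfSpace_le ⟨fun _ _ => rfl, fun _ _ => rfl⟩ _
      exact convexHull_min (by rintro _ ⟨m, hm, rfl⟩; exact hn₀ m hm) hconv hg'
    have hl : Tendsto (fun N => (u (n₀ + N) + (1 / 2 : ℝ) ^ (n₀ + N) • f (n₀ + N)) b) atTop
        (𝓝 (U b)) :=
      (continuous_eval_const b).continuousAt.tendsto.comp (hlim n₀)
    have hle : U b ≤ u n₀ b + (1 / 2 : ℝ) ^ n₀ * (s + η) :=
      le_of_tendsto' hl fun N => by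
        obtain ⟨g', hg', he⟩ := comb N n₀
        rw [← he]
        simp only [ContinuousMap.add_apply, ContinuousMap.smul_apply, smul_eq_mul]
        have := hC g' hg'
        gcongr
    have e2 : (2 : ℝ) ^ n₀ * (1 / 2) ^ n₀ = 1 := by rw [← mul_pow]; norm_num
    have := mul_le_mul_of_nonneg_left hle (show (0 : ℝ) ≤ 2 ^ n₀ by positivity)
    simp only [τ]
    linear_combination this + (s + η) * e2
  have hUb : U b ≤ s + 3 * η := by
    have := htel n₀
    have h0 : τ 0 = U b := by simp [τ, u]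
    have : 0 ≤ (1 / 2 : ℝ) ^ n₀ := by positivity
    nlinarith
  obtain ⟨N, hN⟩ := Metric.tendsto_atTop.1 (hlim 0) η hη0
  obtain ⟨g', hg', he⟩ := comb N 0
  refine ⟨g', convexHull_mono (Set.image_subset_range _ _) hg', fun t => ?_⟩
  have h1 := hN N le_rfl
  rw [← he, dist_eq_norm] at h1
  have e : u 0 + (1 / 2 : ℝ) ^ 0 • g' = g' := by simp [u]
  rw [e] at h1
  have h3 := ((g' - U).norm_coe_le_norm t).trans h1.le
  rw [ContinuousMap.sub_apply, Real.norm_eq_abs] at h3
  linarith [(abs_le.1 h3).2, hbmax t, hη]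

end Vale.Agent.P129
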