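import Mathlib
import Vale.Agent.P129.Criterion
import Vale.Agent.P129.Simons

/-!
If a weakly compact set is norming for a separable infinite-dimensional subspace `Y` of the dual,
then restriction to `Y` is a quotient map onto a separable infinite-dimensional space.
-/

namespace Vale.Agent.P129

open Filter Topology TopologicalSpace Metric

variable {𝕜 : Type*} [RCLike 𝕜] {X : Type*} [NormedAddCommGroup X] [NormedSpace 𝕜 X]

/-- A set is weakly compact. -/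
def IsWeaklyCompact (𝕜 : Type*) [RCLike 𝕜] {X : Type*} [NormedAddCommGroup X] [NormedSpace 𝕜 X]
    (K : Set X) : Prop :=
  IsCompact (toWeakSpace 𝕜 X '' K)

theorem continuous_eval_weak (f : StrongDual 𝕜 X) :
    Continuous fun w : WeakSpace 𝕜 X => f ((toWeakSpace 𝕜 X).symm w) :=
  WeakBilin.eval_continuous (topDualPairing 𝕜 X).flip f

theorem IsWeaklyCompact.exists_bound [CompleteSpace X] {K : Set X} (hK : IsWeaklyCompact 𝕜 K) :
    ∃ R : ℝ, 0 ≤ R ∧ ∀ x ∈ K, ‖x‖ ≤ R := by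
  have : ∀ f : StrongDual 𝕜 X, ∃ C, ∀ x : K, ‖NormedSpace.inclusionInDoubleDual 𝕜 X x f‖ ≤ C := by
    intro f
    obtain ⟨C, hC⟩ := (hK.image (continuous_eval_weak f)).isBounded.exists_norm_le
    exact ⟨C, fun x => hC _ ⟨_, ⟨x.1, x.2, rfl⟩, by simp⟩⟩
  obtain ⟨C, hC⟩ := banach_steinhaus this
  refine ⟨max C 0, le_max_right _ _, fun x hx => ?_⟩
  refine le_trans ?_ (le_max_left C 0)
  rw [← (NormedSpace.inclusionInDoubleDualLi 𝕜 (E := X)).norm_map x]
  exact hC ⟨x, hx⟩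

theorem norm_le_of_re_rotations {z : 𝕜} {u : ℝ}
    (h : ∀ c : 𝕜, ‖c‖ ≤ 1 → RCLike.re (c * z) ≤ u) : ‖z‖ ≤ u := by
  rcases eq_or_ne z 0 with rfl | hz
  · simpa using h 0 (by simp)
  · have hz' : (0 : ℝ) < ‖z‖ := norm_pos_iff.2 hz
    have h1 := h ((‖z‖⁻¹ : ℝ) • starRingEnd 𝕜 z) (by
      rw [norm_smul, norm_inv, norm_norm, RCLike.norm_conj, inv_mul_cancel₀ hz'.ne'])
    rw [RCLike.real_smul_eq_coe_mul, mul_assoc, RCLike.conj_mul, ← RCLike.ofReal_pow,
      ← RCLike.ofReal_mul, RCLike.ofReal_re, sq, ← mul_assoc, inv_mul_cancel₀ hz'.ne',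
      one_mul] at h1
    exact h1

theorem norm_le_div_of_re_le_on_ball {Z : Type*} [NormedAddCommGroup Z] [NormedSpace 𝕜 Z]
    (f : StrongDual 𝕜 Z) {M u : ℝ} (hM : 0 < M)
    (h : ∀ y : Z, ‖y‖ ≤ M → RCLike.re (f y) ≤ u) : ‖f‖ ≤ u / M := by
  have hu : 0 ≤ u := by simpa using h 0 (by simpa using hM.le)
  have hball : ∀ y : Z, ‖y‖ ≤ M → ‖f y‖ ≤ u := fun y hy => norm_le_of_re_rotations fun c hc => by
    have := h (c • y) (by
      rw [norm_smul]
      exact (mul_le_mul hc hy (norm_nonneg _) zero_le_one).trans_eq (one_mul M))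
    simpa using this
  refine f.opNorm_le_bound (by positivity) fun y => ?_
  rcases eq_or_ne y 0 with rfl | hy
  · simp
  · have hy' : (0 : ℝ) < ‖y‖ := norm_pos_iff.2 hy
    have := hball (((M / ‖y‖ : ℝ) : 𝕜) • y) (by
      rw [norm_smul, RCLike.norm_ofReal, abs_of_pos (by positivity), div_mul_cancel₀ _ hy'.ne'])
    rw [map_smul, smul_eq_mul, norm_mul, RCLike.norm_ofReal, abs_of_pos (by positivity),
      div_mul_eq_mul_div, div_le_iff₀ hy'] at this
    rw [div_mul_eq_mul_div, le_div_iff₀ hM]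
    linarith

/-- Finite-dimensional Goldstine lemma: finitely many values of an element of the bidual are
approximately attained in a slightly larger ball. -/
theorem exists_near_bidual {Y : Type*} [NormedAddCommGroup Y] [NormedSpace 𝕜 Y] {n : ℕ}
    (φ : Fin n → StrongDual 𝕜 Y) (Ψ : StrongDual 𝕜 (StrongDual 𝕜 Y)) {δ : ℝ} (hδ : 0 < δ) :
    ∃ y : Y, ‖y‖ ≤ ‖Ψ‖ + 1 ∧ ∀ i, ‖φ i y - Ψ (φ i)‖ < δ := by
  let L : Y →L[𝕜] (Fin n → 𝕜) := ContinuousLinearMap.pi φ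
  let v : Fin n → 𝕜 := fun i => Ψ (φ i)
  have hv : v ∈ closure (L '' closedBall 0 (‖Ψ‖ + 1)) := by
    by_contra hno
    have hc : Convex ℝ (closure (L '' closedBall 0 (‖Ψ‖ + 1))) := by
      letI : NormedSpace ℝ Y := NormedSpace.restrictScalars ℝ 𝕜 Y
      letI : IsScalarTower ℝ 𝕜 Y := RestrictScalars.isScalarTower ℝ 𝕜 Y
      exact ((convex_closedBall (0 : Y) _).linear_image
        ((L : Y →ₗ[𝕜] (Fin n → 𝕜)).restrictScalars ℝ)).closure
    obtain ⟨a, u, ha, hu⟩ := RCLike.geometric_hahn_banach_closed_point (𝕜 := 𝕜) hc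
      isClosed_closure hno
    let θ : StrongDual 𝕜 Y := a.comp L
    have key : ∀ w : Fin n → 𝕜, a w = ∑ i, w i * a (Pi.single i 1) := by
      intro w
      conv_lhs => rw [pi_eq_sum_univ w]
      simp only [map_sum, map_smul, smul_eq_mul]
      refine Finset.sum_congr rfl fun i _ => ?_
      congr 1
      congr 1
      funext j
      simp [Pi.single_apply, eq_comm]
    have hθ : θ = ∑ i, a (Pi.single i 1) • φ i := by
      ext y
      rw [show θ y = a (L y) from rfl, key]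
      simp [L, mul_comm]
    have hΨ : Ψ θ = a v := by
      rw [hθ, key]
      simp [v, mul_comm]
    have hM : (0 : ℝ) < ‖Ψ‖ + 1 := by positivity
    have hn := norm_le_div_of_re_le_on_ball θ hM fun y hy =>
      (ha (L y) (subset_closure ⟨y, mem_closedBall_zero_iff.2 hy, rfl⟩)).le
    have h1 : RCLike.re (a v) ≤ ‖Ψ‖ * ‖θ‖ :=
      (RCLike.re_le_norm _).trans (hΨ ▸ Ψ.le_opNorm θ)
    rw [le_div_iff₀ hM] at hn
    nlinarith [norm_nonneg θ]
  obtain ⟨_, ⟨y, hy, rfl⟩, hd⟩ := Metric.mem_closure_iff.1 hv δ hδ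
  refine ⟨y, mem_closedBall_zero_iff.1 hy, fun i => ?_⟩
  rw [norm_sub_rev, ← dist_eq_norm]
  exact lt_of_le_of_lt (dist_le_pi_dist v (L y) i) hd

/-- Every value on `K` is a limit of combinations of countably many values, seen from a separable
space `Y` of functionals. -/
theorem exists_countable_detecting {Y : Type*} [NormedAddCommGroup Y] [NormedSpace 𝕜 Y]
    [SeparableSpace Y] (J : Y →L[𝕜] StrongDual 𝕜 X) {K : Set X} (hK : IsWeaklyCompact 𝕜 K) :
    ∃ S : Set X, S.Countable ∧ S ⊆ K ∧ ∀ Ψ : StrongDual 𝕜 (StrongDual 𝕜 Y),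
      (∀ z ∈ S, Ψ (J.flip z) = 0) → ∀ x ∈ K, Ψ (J.flip x) = 0 := by
  classical
  let Φ : X → ℕ → 𝕜 := fun x n => (J (denseSeq Y n)) x
  obtain ⟨c, hc, hcc, hcd⟩ := (IsSeparable.of_separableSpace (Φ '' K)).exists_countable_dense_subset
  choose sec hsec using fun z : c => hc z.2
  have : Countable c := hcc.to_subtype
  refine ⟨Set.range sec, Set.countable_range _, fun _ ⟨z, hz⟩ => hz ▸ (hsec z).1, ?_⟩
  intro Ψ hΨ x hx
  let g : StrongDual 𝕜 X := Ψ.comp J.flip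
  have hΦw : Continuous fun w : WeakSpace 𝕜 X => Φ ((toWeakSpace 𝕜 X).symm w) :=
    continuous_pi fun n => continuous_eval_weak (J (denseSeq Y n))
  have hA : IsCompact ((toWeakSpace 𝕜 X '' K) ∩ {w | g ((toWeakSpace 𝕜 X).symm w) = 0}) :=
    hK.inter_right (isClosed_eq (continuous_eval_weak g) continuous_const)
  have hsub : Φ '' K ⊆
      (fun w => Φ ((toWeakSpace 𝕜 X).symm w)) ''
        ((toWeakSpace 𝕜 X '' K) ∩ {w | g ((toWeakSpace 𝕜 X).symm w) = 0}) := by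
    refine hcd.trans (closure_minimal ?_ (hA.image hΦw).isClosed)
    intro z hz
    refine ⟨toWeakSpace 𝕜 X (sec ⟨z, hz⟩), ⟨⟨_, (hsec ⟨z, hz⟩).1, rfl⟩, ?_⟩, ?_⟩
    · simpa [g] using hΨ _ ⟨⟨z, hz⟩, rfl⟩
    · simpa using (hsec ⟨z, hz⟩).2
  obtain ⟨w, ⟨-, hw⟩, he⟩ := hsub ⟨x, hx, rfl⟩
  have hr : J.flip ((toWeakSpace 𝕜 X).symm w) = J.flip x := by
    apply ContinuousLinearMap.coeFn_injective
    exact (denseRange_denseSeq Y).equalizer (map_continuous _) (map_continuous _) he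
  rw [← hr]
  exact hw

/-- The key estimate: a weakly compact set which is norming for `Y` is norming for the bidual
of `Y`. -/
theorem norming_bidual [CompleteSpace X] {Y : Type*} [NormedAddCommGroup Y] [NormedSpace 𝕜 Y]
    [SeparableSpace Y] (J : Y →L[𝕜] StrongDual 𝕜 X) {K : Set X} (hK : IsWeaklyCompact 𝕜 K) (hKne : K.Nonempty) {θ : ℝ}
    (hθ : ∀ (y : Y) (c : ℝ), (∀ x ∈ K, ‖J y x‖ ≤ c) → θ * ‖y‖ ≤ c)
    (hθ0 : 0 < θ) (Ψ : StrongDual 𝕜 (StrongDual 𝕜 Y)) {s : ℝ}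
    (hs : ∀ x ∈ K, ‖Ψ (J.flip x)‖ ≤ s) (φ : StrongDual 𝕜 Y) :
    θ * ‖Ψ φ‖ ≤ s * ‖φ‖ := by
  have hs0 : 0 ≤ s := (norm_nonneg _).trans (hs _ hKne.choose_spec)
  refine (mul_comm θ _).trans_le ?_
  rw [← le_div_iff₀ hθ0]
  refine norm_le_of_re_rotations fun a ha => ?_
  -- it is enough to treat the rotated functional
  suffices H : ∀ φ' : StrongDual 𝕜 Y, RCLike.re (Ψ φ') ≤ s * ‖φ'‖ / θ by
    have h1 := H (a • φ)
    rw [map_smul, smul_eq_mul, norm_smul] at h1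
    refine h1.trans ?_
    gcongr
    exact mul_le_of_le_one_left (norm_nonneg _) ha
  intro φ
  obtain ⟨S₀, hS₀c, -, hS₀⟩ := exists_countable_detecting J hK
  set S := insert hKne.choose S₀
  have hSc : S.Countable := hS₀c.insert _
  have hSne : S.Nonempty := ⟨_, Set.mem_insert _ _⟩
  have hS : ∀ Ψ : StrongDual 𝕜 (StrongDual 𝕜 Y),
      (∀ z ∈ S, Ψ (J.flip z) = 0) → ∀ x ∈ K, Ψ (J.flip x) = 0 :=
    fun Ψ h => hS₀ Ψ fun z hz => h z (Set.mem_insert_of_mem _ hz)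
  obtain ⟨e, he⟩ := hSc.exists_eq_range hSne
  have hseq : ∀ n : ℕ, ∃ y : Y, ‖y‖ ≤ ‖Ψ‖ + 1 ∧
      (∀ i : Fin n, ‖J.flip (e i) y - Ψ (J.flip (e i))‖ < 1 / (n + 1)) ∧
      ‖φ y - Ψ φ‖ < 1 / (n + 1) := by
    intro n
    obtain ⟨y, hy, hy'⟩ := exists_near_bidual
      (Fin.cons φ fun i : Fin n => J.flip (e i)) Ψ
      (show (0 : ℝ) < 1 / (n + 1) by positivity)
    exact ⟨y, hy, fun i => by simpa using hy' i.succ, by simpa using hy' 0⟩
  choose y hyB hye hyφ using hseq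
  let Z : Submodule 𝕜 (StrongDual 𝕜 Y) :=
    (Submodule.span 𝕜 (Set.range fun i => J.flip (e i))).topologicalClosure
  have hmemZ : ∀ x ∈ K, J.flip x ∈ Z := by
    intro x hx
    by_contra hno
    have : IsClosed (Z : Set (StrongDual 𝕜 Y)) := Submodule.isClosed_topologicalClosure _
    have hc : Convex ℝ (Z : Set (StrongDual 𝕜 Y)) := (Z.restrictScalars ℝ).convex
    obtain ⟨f, u, hf, hu⟩ := RCLike.geometric_hahn_banach_closed_point (𝕜 := 𝕜) hc this hno
    have hu0 : 0 < u := by simpa using hf 0 Z.zero_mem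
    have hfZ : ∀ z ∈ Z, f z = 0 := by
      intro z hz
      by_contra hfz
      have := hf (((u : 𝕜) / f z) • z) (Z.smul_mem _ hz)
      rw [map_smul, smul_eq_mul, div_mul_cancel₀ _ hfz, RCLike.ofReal_re] at this
      exact lt_irrefl _ this
    have := hS f (fun z hz => by
      rw [he] at hz
      obtain ⟨i, rfl⟩ := hz
      exact hfZ _ ((Submodule.span 𝕜 _).le_topologicalClosure (Submodule.subset_span ⟨i, rfl⟩)))
      x hx
    rw [this] at hu
    simp at hu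
    linarith
  have hconvspan : ∀ z ∈ Submodule.span 𝕜 (Set.range fun i => J.flip (e i)),
      Tendsto (fun n => z (y n)) atTop (𝓝 (Ψ z)) := by
    intro z hz
    induction hz using Submodule.span_induction with
    | mem z hz =>
      obtain ⟨i, rfl⟩ := hz
      rw [tendsto_iff_norm_sub_tendsto_zero]
      refine squeeze_zero' (Eventually.of_forall fun n => norm_nonneg _) ?_
        tendsto_one_div_add_atTop_nhds_zero_nat
      filter_upwards [eventually_gt_atTop i] with n hn using (hye n ⟨i, hn⟩).le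
    | zero => simp
    | add a b _ _ h1 h2 =>
      rw [map_add]
      simpa only [add_apply] using h1.add h2
    | smul c a _ h1 =>
      rw [map_smul]
      simpa only [smul_apply] using h1.const_smul c
  have hconv : ∀ x ∈ K, ∀ η > 0, ∀ᶠ n in atTop,
      ‖J (y n) x‖ ≤ s + η := by
    intro x hx η hη
    have h1 : J.flip x ∈ closure
        (Submodule.span 𝕜 (Set.range fun i => J.flip (e i)) : Set (StrongDual 𝕜 Y)) := by
      rw [← Submodule.topologicalClosure_coe]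
      exact hmemZ x hx
    have hM : (0 : ℝ) < 2 * (‖Ψ‖ + 1) + 1 := by positivity
    obtain ⟨z, hz, hd⟩ := Metric.mem_closure_iff.1 h1 (η / 2 / (2 * (‖Ψ‖ + 1) + 1)) (by positivity)
    rw [dist_eq_norm, lt_div_iff₀ hM] at hd
    filter_upwards [(tendsto_iff_norm_sub_tendsto_zero.1 (hconvspan z hz)).eventually
      (eventually_le_nhds (show (0 : ℝ) < η / 2 by positivity))] with n hn
    set d := J.flip x - z
    have e1 : J (y n) x =
        Ψ (J.flip x) + (d (y n) - Ψ d) + (z (y n) - Ψ z) := by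
      simp [d]
      abel
    rw [e1]
    refine (norm_add₃_le).trans ?_
    have h2 : ‖d (y n) - Ψ d‖ ≤ ‖d‖ * (2 * (‖Ψ‖ + 1)) := by
      refine (norm_sub_le _ _).trans ?_
      nlinarith [d.le_opNorm (y n), Ψ.le_opNorm d, hyB n, norm_nonneg d, norm_nonneg Ψ]
    nlinarith [hs x hx, norm_nonneg d, norm_nonneg Ψ]
  -- Simons' lemma on `K × disc`
  refine le_of_forall_pos_le_add fun η hη => ?_
  obtain ⟨η', hη', hη'eq⟩ : ∃ η' > 0, η' * (2 * ‖φ‖ + θ) ≤ η * θ := by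
    refine ⟨η * θ / (2 * ‖φ‖ + θ), by positivity, ?_⟩
    rw [div_mul_cancel₀ _ (by positivity)]
  obtain ⟨n₀, hn₀⟩ : ∃ n₀, ∀ n ≥ n₀, RCLike.re (Ψ φ) - η' ≤ RCLike.re (φ (y n)) := by
    obtain ⟨n₀, hn₀⟩ : ∃ m : ℕ, 1 / η' < (m : ℝ) := exists_nat_gt _
    refine ⟨n₀, fun n hn => ?_⟩
    have h1 : (1 : ℝ) / (n + 1) ≤ η' := by
      rw [div_lt_iff₀ hη'] at hn₀
      rw [div_le_iff₀ (by positivity)]
      have : (n₀ : ℝ) ≤ n := by exact_mod_cast hn
      nlinarith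
    have h2 := (RCLike.abs_re_le_norm (φ (y n) - Ψ φ)).trans ((hyφ n).le.trans h1)
    rw [map_sub] at h2
    linarith [(abs_le.1 h2).1]
  obtain ⟨R, hR0, hR⟩ := hK.exists_bound
  let T := (toWeakSpace 𝕜 X '' K : Set (WeakSpace 𝕜 X)) × closedBall (0 : 𝕜) 1
  haveI : CompactSpace ↥(toWeakSpace 𝕜 X '' K) := isCompact_iff_compactSpace.1 hK
  haveI : CompactSpace ↥(closedBall (0 : 𝕜) 1) :=
    isCompact_iff_compactSpace.1 (isCompact_closedBall 0 1)
  haveI : Nonempty T :=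
    ⟨⟨⟨_, hKne.choose, hKne.choose_spec, rfl⟩, ⟨0, by simp⟩⟩⟩
  let F : Y → C(T, ℝ) := fun z =>
    ⟨fun t => RCLike.re ((t.2 : 𝕜) * J z ((toWeakSpace 𝕜 X).symm t.1)),
      RCLike.continuous_re.comp ((continuous_subtype_val.comp continuous_snd).mul
        ((continuous_eval_weak _).comp (continuous_subtype_val.comp continuous_fst)))⟩
  have hTmem : ∀ t : T, (toWeakSpace 𝕜 X).symm t.1 ∈ K := fun t => by
    obtain ⟨x, hx, hxt⟩ := t.1.2
    rw [← hxt]; simpa using hx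
  have hFB : ∀ n, ‖F (y (n + n₀))‖ ≤ ‖J‖ * (‖Ψ‖ + 1) * R := fun n => by
    rw [ContinuousMap.norm_le _ (by positivity)]
    intro t
    refine (RCLike.abs_re_le_norm _).trans ?_
    rw [norm_mul]
    have h1 : ‖(t.2 : 𝕜)‖ ≤ 1 := mem_closedBall_zero_iff.1 t.2.2
    have h2 := ((J (y (n + n₀))).le_opNorm ((toWeakSpace 𝕜 X).symm t.1)).trans
      (mul_le_mul ((J.le_opNorm _).trans (mul_le_mul_of_nonneg_left (hyB (n + n₀)) (norm_nonneg _))) (hR _ (hTmem t)) (norm_nonneg _) (by positivity))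
    exact (mul_le_mul h1 h2 (norm_nonneg _) zero_le_one).trans_eq (one_mul _)
  have hFs : ∀ t, ∀ δ > 0, ∀ᶠ n in atTop, F (y (n + n₀)) t ≤ s + δ := by
    intro t δ hδ
    filter_upwards [(tendsto_add_atTop_nat n₀).eventually (hconv _ (hTmem t) δ hδ)] with n hn
    refine (RCLike.re_le_norm _).trans ?_
    rw [norm_mul]
    have h1 : ‖(t.2 : 𝕜)‖ ≤ 1 := mem_closedBall_zero_iff.1 t.2.2
    exact (mul_le_of_le_one_left (norm_nonneg _) h1).trans hn
  obtain ⟨g, hg, hgs⟩ := simons (fun n => F (y (n + n₀))) _ hFB s hFs hη'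
  let G : Set C(T, ℝ) := {g | ∃ z : Y, RCLike.re (Ψ φ) - η' ≤ RCLike.re (φ z) ∧ F z = g}
  have hGc : Convex ℝ G := by
    rintro _ ⟨z₁, h₁, rfl⟩ _ ⟨z₂, h₂, rfl⟩ a b ha hb hab
    refine ⟨(a : 𝕜) • z₁ + (b : 𝕜) • z₂, ?_, ?_⟩
    · rw [map_add, map_smul, map_smul, map_add, smul_eq_mul, smul_eq_mul, RCLike.re_ofReal_mul,
        RCLike.re_ofReal_mul]
      calc RCLike.re (Ψ φ) - η' = a * (RCLike.re (Ψ φ) - η') + b * (RCLike.re (Ψ φ) - η') := by
            rw [← add_mul, hab, one_mul]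
        _ ≤ _ := by gcongr
    · ext t
      simp [F, mul_add, RCLike.re_ofReal_mul]
      ring
  obtain ⟨z, hzφ, rfl⟩ := convexHull_min (by
    rintro _ ⟨n, rfl⟩
    exact ⟨y (n + n₀), hn₀ _ (Nat.le_add_left _ _), rfl⟩) hGc hg
  have hzK : θ * ‖z‖ ≤ s + η' := hθ z _ fun x hx => norm_le_of_re_rotations fun c hc => by
    simpa [F] using hgs ⟨⟨_, x, hx, rfl⟩, ⟨c, mem_closedBall_zero_iff.2 hc⟩⟩
  have hz1 : θ * RCLike.re (φ z) ≤ ‖φ‖ * (s + η') := by
    calc θ * RCLike.re (φ z) ≤ θ * (‖φ‖ * ‖z‖) :=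
          mul_le_mul_of_nonneg_left ((RCLike.re_le_norm _).trans (φ.le_opNorm z)) hθ0.le
      _ = ‖φ‖ * (θ * ‖z‖) := by ring
      _ ≤ _ := mul_le_mul_of_nonneg_left hzK (norm_nonneg _)
  rw [div_add' _ _ _ hθ0.ne', le_div_iff₀ hθ0]
  nlinarith [norm_nonneg φ]

end Vale.Agent.P129
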