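import Mathlib
import Vale.Agent.P129.Criterion
import Vale.Agent.P129.Norming

/-!
A Banach space generated by fewer than `𝔭` weakly compact sets has a separable infinite-dimensional
quotient.
-/

namespace Vale.Agent.P129

open Filter Topology TopologicalSpace Metric Cardinal

/-- Every finite subfamily has infinite intersection. -/
def HasInfiniteFiniteInters (F : Set (Set ℕ)) : Prop :=
  ∀ G : Finset (Set ℕ), (G : Set (Set ℕ)) ⊆ F → (⋂ A ∈ G, A).Infinite

/-- Some infinite set is almost contained in every member. -/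
def HasPseudoIntersection (F : Set (Set ℕ)) : Prop :=
  ∃ P : Set ℕ, P.Infinite ∧ ∀ A ∈ F, (P \ A).Finite

/-- The pseudo-intersection number `𝔭`. -/
noncomputable def pNumber : Cardinal.{0} :=
  sInf {κ | ∃ F : Set (Set ℕ), #F = κ ∧ HasInfiniteFiniteInters F ∧ ¬ HasPseudoIntersection F}

theorem exists_family_without_pseudoIntersection :
    ∃ F : Set (Set ℕ), HasInfiniteFiniteInters F ∧ ¬ HasPseudoIntersection F := by
  refine ⟨{A | A ∈ hyperfilter ℕ}, fun G hG => ?_, ?_⟩
  · intro hfin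
    exact notMem_hyperfilter_of_finite hfin ((Filter.biInter_finset_mem G).2 fun A hA => hG hA)
  · rintro ⟨P, hP, hPF⟩
    let E : Set ℕ := {n | ∃ i, n = Nat.nth (· ∈ P) (2 * i)}
    let O : Set ℕ := {n | ∃ i, n = Nat.nth (· ∈ P) (2 * i + 1)}
    have hinj : Function.Injective (Nat.nth (· ∈ P)) := (Nat.nth_strictMono hP).injective
    have hEinf : E.Infinite := Set.infinite_of_injective_forall_mem
      (f := fun i => Nat.nth (· ∈ P) (2 * i)) (fun a b h => by have := hinj h; omega) fun i => ⟨i, rfl⟩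
    have hOinf : O.Infinite := Set.infinite_of_injective_forall_mem
      (f := fun i => Nat.nth (· ∈ P) (2 * i + 1)) (fun a b h => by have := hinj h; omega)
      fun i => ⟨i, rfl⟩
    have hdisj : ∀ n, n ∈ E → n ∉ O := by
      rintro _ ⟨i, rfl⟩ ⟨j, hj⟩
      have := hinj hj
      omega
    by_cases hE : E ∈ hyperfilter ℕ
    · exact hOinf ((hPF E hE).subset fun n hn => ⟨by
        obtain ⟨i, rfl⟩ := hn; exact Nat.nth_mem_of_infinite hP _, fun h => hdisj n h hn⟩)
    · have hc : Eᶜ ∈ hyperfilter ℕ := Ultrafilter.compl_mem_iff_notMem.2 hE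
      exact hEinf ((hPF _ hc).subset fun n hn => ⟨by
        obtain ⟨i, rfl⟩ := hn; exact Nat.nth_mem_of_infinite hP _, fun h => h hn⟩)

theorem hasPseudoIntersection_of_countable {F : Set (Set ℕ)} (hc : F.Countable)
    (hF : HasInfiniteFiniteInters F) : HasPseudoIntersection F := by
  rcases F.eq_empty_or_nonempty with rfl | hne
  · exact ⟨Set.univ, Set.infinite_univ, by simp⟩
  obtain ⟨e, rfl⟩ := hc.exists_eq_range hne
  have h : ∀ n : ℕ, ∃ m, n < m ∧ ∀ i ≤ n, m ∈ e i := by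
    classical
    intro n
    have := hF ((Finset.range (n + 1)).image e) (by simp)
    obtain ⟨m, hm, hnm⟩ := this.exists_gt n
    refine ⟨m, hnm, fun i hi => ?_⟩
    simp only [Set.mem_iInter] at hm
    exact hm _ (Finset.mem_image_of_mem e (Finset.mem_range.2 (by omega)))
  choose m hnm hm using h
  refine ⟨Set.range m, Set.infinite_of_not_bddAbove ?_, ?_⟩
  · rintro ⟨B, hB⟩
    exact absurd (hB ⟨B, rfl⟩) (not_le.2 (hnm B))
  · rintro _ ⟨i, rfl⟩
    refine ((Set.finite_lt_nat i).image m).subset ?_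
    rintro _ ⟨⟨n, rfl⟩, hn⟩
    exact ⟨n, by_contra fun h => hn (hm n i (not_lt.1 h)), rfl⟩

theorem hasPseudoIntersection_of_lt {F : Set (Set ℕ)} (hlt : #F < pNumber)
    (hF : HasInfiniteFiniteInters F) : HasPseudoIntersection F := by
  by_contra hno
  exact absurd (csInf_le (OrderBot.bddBelow _) (show #F ∈ {κ : Cardinal.{0} | ∃ F : Set (Set ℕ), #F = κ ∧ HasInfiniteFiniteInters F ∧ ¬ HasPseudoIntersection F} from ⟨F, rfl, hF, hno⟩)) (not_le.2 hlt)

theorem aleph0_lt_pNumber : ℵ₀ < pNumber := by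
  obtain ⟨F, hF⟩ := exists_family_without_pseudoIntersection
  by_contra hle
  obtain ⟨G, hG, hG1, hG2⟩ := csInf_mem
    (s := {κ | ∃ F : Set (Set ℕ), #F = κ ∧ HasInfiniteFiniteInters F ∧ ¬ HasPseudoIntersection F})
    ⟨#F, F, rfl, hF.1, hF.2⟩
  refine hG2 (hasPseudoIntersection_of_countable (le_aleph0_iff_set_countable.1 ?_) hG1)
  rw [hG]
  exact not_lt.1 hle

variable {𝕜 : Type*} [RCLike 𝕜] {X : Type*} [NormedAddCommGroup X] [NormedSpace 𝕜 X]

theorem finiteDimensional_of_dual {Z : Type*} [NormedAddCommGroup Z] [NormedSpace 𝕜 Z]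
    [FiniteDimensional 𝕜 (StrongDual 𝕜 Z)] : FiniteDimensional 𝕜 Z :=
  Module.Finite.of_injective
    ((ContinuousLinearMap.coeLM (M := StrongDual 𝕜 Z) (N₃ := 𝕜) 𝕜).comp
      ((NormedSpace.inclusionInDoubleDual 𝕜 Z) : Z →ₗ[𝕜] StrongDual 𝕜 (StrongDual 𝕜 Z)))
    (ContinuousLinearMap.coe_injective.comp
      (NormedSpace.inclusionInDoubleDualLi 𝕜 (E := Z)).injective)

theorem exists_separable_subspace (hinf : ¬ FiniteDimensional 𝕜 X) :
    ∃ (Y : Submodule 𝕜 (StrongDual 𝕜 X)), SeparableSpace Y ∧ ¬ FiniteDimensional 𝕜 Y := by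
  have hinf' : ¬ FiniteDimensional 𝕜 (StrongDual 𝕜 X) := fun h => hinf <| by
    exact finiteDimensional_of_dual
  obtain ⟨f, hf⟩ : ∃ f : ℕ → StrongDual 𝕜 X, LinearIndependent 𝕜 f := by
    let b := Module.Free.chooseBasis 𝕜 (StrongDual 𝕜 X)
    have : Infinite (Module.Free.ChooseBasisIndex 𝕜 (StrongDual 𝕜 X)) := by
      by_contra hni
      rw [not_infinite_iff_finite] at hni
      exact hinf' (Module.Finite.of_basis b)
    exact ⟨_, b.linearIndependent.comp _ (Infinite.natEmbedding _).injective⟩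
  refine ⟨Submodule.span 𝕜 (Set.range f), ?_, fun hfin => ?_⟩
  · exact (Set.countable_range f).isSeparable.span.separableSpace
  · have := linearIndependent_span hf |>.finite
    exact not_finite ℕ

/-- The norming case. -/
theorem hasSQ_of_norming [CompleteSpace X] {Y : Type*} [NormedAddCommGroup Y] [NormedSpace 𝕜 Y]
    [SeparableSpace Y] (hYinf : ¬ FiniteDimensional 𝕜 Y) (J : Y →L[𝕜] StrongDual 𝕜 X) {K : Set X}
    (hK : IsWeaklyCompact 𝕜 K) (hKne : K.Nonempty) {θ : ℝ} (hθ0 : 0 < θ)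
    (hθ : ∀ (y : Y) (c : ℝ), (∀ x ∈ K, ‖J y x‖ ≤ c) → θ * ‖y‖ ≤ c) : HasSQ 𝕜 X := by
  set r : X →L[𝕜] StrongDual 𝕜 Y := J.flip with hr
  obtain ⟨R₀, hR₀0, hR₀⟩ := hK.exists_bound
  set R := R₀ + 1
  have hR : ∀ x ∈ K, ‖x‖ ≤ R := fun x hx => (hR₀ x hx).trans (by simp [R])
  have hR0 : 0 < R := by positivity
  have happrox : ∀ φ : StrongDual 𝕜 Y,
      ∃ x, ‖x‖ ≤ R / θ * ‖φ‖ ∧ ‖φ - r x‖ ≤ 1 / 2 * ‖φ‖ := by
    intro φ
    rcases eq_or_ne φ 0 with rfl | hφ
    · exact ⟨0, by simp, by simp⟩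
    have hφ' : 0 < ‖φ‖ := norm_pos_iff.2 hφ
    set ψ : StrongDual 𝕜 Y := ((θ / ‖φ‖ : ℝ) : 𝕜) • φ
    have hψ : ‖ψ‖ = θ := by
      rw [norm_smul, RCLike.norm_ofReal, abs_of_pos (by positivity), div_mul_cancel₀ _ hφ'.ne']
    have hmem : ψ ∈ closure (r '' closedBall 0 R) := by
      by_contra hno
      have hc : Convex ℝ (closure (r '' closedBall 0 R)) := by
        refine Convex.closure fun a ⟨x, hx, hxa⟩ b ⟨z, hz, hzb⟩ s t hs ht hst => ?_
        refine ⟨(s : 𝕜) • x + (t : 𝕜) • z, ?_, ?_⟩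
        · rw [mem_closedBall_zero_iff] at hx hz ⊢
          refine (norm_add_le _ _).trans ?_
          rw [norm_smul, norm_smul, RCLike.norm_ofReal, RCLike.norm_ofReal, abs_of_nonneg hs,
            abs_of_nonneg ht]
          calc s * ‖x‖ + t * ‖z‖ ≤ s * R + t * R := by gcongr
            _ = R := by rw [← add_mul, hst, one_mul]
        · rw [map_add, map_smul, map_smul, hxa, hzb]
          congr 1
          · exact (RCLike.real_smul_eq_coe_smul s a).symm
          · exact (RCLike.real_smul_eq_coe_smul t b).symm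
      obtain ⟨Ψ, u, hΨ, hu⟩ := RCLike.geometric_hahn_banach_closed_point (𝕜 := 𝕜) hc
        isClosed_closure hno
      have hs : ∀ x ∈ K, ‖Ψ (r x)‖ ≤ u := fun x hx => norm_le_of_re_rotations fun c hc => by
        have h1 : c • x ∈ closedBall (0 : X) R := by
          rw [mem_closedBall_zero_iff, norm_smul]
          exact (mul_le_mul hc (hR x hx) (norm_nonneg _) zero_le_one).trans_eq (one_mul _)
        simpa using (hΨ _ (subset_closure ⟨_, h1, rfl⟩)).le
      have := norming_bidual J hK hKne hθ hθ0 Ψ hs ψ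
      rw [hψ] at this
      nlinarith [RCLike.re_le_norm (Ψ ψ)]
    obtain ⟨_, ⟨x, hx, rfl⟩, hd⟩ := Metric.mem_closure_iff.1 hmem (θ / 2) (by positivity)
    rw [dist_eq_norm] at hd
    refine ⟨((‖φ‖ / θ : ℝ) : 𝕜) • x, ?_, ?_⟩
    · rw [norm_smul, RCLike.norm_ofReal, abs_of_pos (by positivity)]
      calc ‖φ‖ / θ * ‖x‖ ≤ ‖φ‖ / θ * R :=
            mul_le_mul_of_nonneg_left (mem_closedBall_zero_iff.1 hx) (by positivity)
        _ = R / θ * ‖φ‖ := by ring
    · have e : φ - r (((‖φ‖ / θ : ℝ) : 𝕜) • x) = ((‖φ‖ / θ : ℝ) : 𝕜) • (ψ - r x) := by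
        rw [map_smul, smul_sub, smul_smul, ← RCLike.ofReal_mul]
        field_simp
        simp
      rw [e, norm_smul, RCLike.norm_ofReal, abs_of_pos (by positivity)]
      calc ‖φ‖ / θ * ‖ψ - r x‖ ≤ ‖φ‖ / θ * (θ / 2) :=
            mul_le_mul_of_nonneg_left hd.le (by positivity)
        _ = 1 / 2 * ‖φ‖ := by field_simp
  choose g hg1 hg2 using happrox
  have hsurj : Function.Surjective r := by
    intro φ
    let rem : ℕ → StrongDual 𝕜 Y := fun n => (fun χ => χ - r (g χ))^[n] φ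
    have hrem : ∀ n, rem (n + 1) = rem n - r (g (rem n)) := fun n =>
      Function.iterate_succ_apply' _ _ _
    have hb : ∀ n, ‖rem n‖ ≤ (1 / 2) ^ n * ‖φ‖ := by
      intro n
      induction n with
      | zero => simp [rem]
      | succ n ih =>
        rw [hrem, pow_succ]
        exact (hg2 _).trans ((mul_le_mul_of_nonneg_left ih (by norm_num)).trans_eq (by ring))
    have hs : Summable fun n => g (rem n) := by
      refine Summable.of_norm_bounded (summable_geometric_two.mul_left (R / θ * ‖φ‖)) fun n => ?_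
      refine (hg1 _).trans ?_
      rw [mul_assoc]
      exact mul_le_mul_of_nonneg_left ((hb n).trans_eq (mul_comm _ _)) (by positivity)
    refine ⟨∑' n, g (rem n), ?_⟩
    have h1 : Tendsto (fun n => φ - rem n) atTop (𝓝 (r (∑' n, g (rem n)))) := by
      have e : ∀ n, φ - rem n = r (∑ i ∈ Finset.range n, g (rem i)) := by
        intro n
        induction n with
        | zero => simp [rem]
        | succ n ih => rw [Finset.sum_range_succ, map_add, ← ih, hrem]; abel
      simp only [e]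
      exact (r.continuous.tendsto _).comp hs.hasSum.tendsto_sum_nat
    have h2 : Tendsto (fun n => φ - rem n) atTop (𝓝 φ) := by
      have h3 : Tendsto rem atTop (𝓝 0) := squeeze_zero_norm hb
        (by simpa using (tendsto_pow_atTop_nhds_zero_of_lt_one (by norm_num : (0 : ℝ) ≤ 1 / 2)
          (by norm_num)).mul_const ‖φ‖)
      simpa using tendsto_const_nhds.sub h3
    exact tendsto_nhds_unique h1 h2
  obtain ⟨S, hSc, -, hS⟩ := exists_countable_detecting J hK
  have hsep : SeparableSpace (StrongDual 𝕜 Y) := by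
    let Z : Set (StrongDual 𝕜 Y) := closure (Submodule.span 𝕜 (r '' S) : Set (StrongDual 𝕜 Y))
    have hZ : Z = Set.univ := by
      refine Set.eq_univ_of_forall fun φ => by_contra fun hno => ?_
      have hc : Convex ℝ Z := ((Submodule.span 𝕜 (r '' S)).restrictScalars ℝ).convex.closure
      obtain ⟨Ψ, u, hΨ, hu⟩ := RCLike.geometric_hahn_banach_closed_point (𝕜 := 𝕜) hc
        isClosed_closure hno
      have hu0 : 0 < u := by simpa using hΨ 0 (subset_closure (Submodule.zero_mem _))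
      have h0 : ∀ z ∈ S, Ψ (J.flip z) = 0 := by
        intro z hz
        by_contra hne
        have hm : ((u : 𝕜) / Ψ (r z)) • r z ∈ Submodule.span 𝕜 (r '' S) :=
          Submodule.smul_mem _ _ (Submodule.subset_span ⟨z, hz, rfl⟩)
        have := hΨ _ (subset_closure hm)
        rw [map_smul, smul_eq_mul, div_mul_cancel₀ _ hne, RCLike.ofReal_re] at this
        exact lt_irrefl _ this
      have := norming_bidual J hK hKne hθ hθ0 Ψ (s := 0)
        (fun x hx => by simp [hS Ψ h0 x hx]) φ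
      rw [zero_mul] at this
      have h1 : ‖Ψ φ‖ = 0 := le_antisymm (nonpos_of_mul_nonpos_right this hθ0) (norm_nonneg _)
      rw [norm_eq_zero.1 h1] at hu
      simp at hu
      linarith
    exact isSeparable_univ_iff.1 (hZ ▸ (hSc.image r).isSeparable.span.closure)
  let M : Submodule 𝕜 X := (r : X →ₗ[𝕜] StrongDual 𝕜 Y).ker
  have hMc : IsClosed (M : Set X) := r.isClosed_ker
  haveI : IsClosed (M : Set X) := hMc
  let rbar : (X ⧸ M) →ₗ[𝕜] StrongDual 𝕜 Y := M.liftQ (r : X →ₗ[𝕜] StrongDual 𝕜 Y) le_rfl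
  have hbij : Function.Bijective rbar :=
    ⟨LinearMap.ker_eq_bot.1 (Submodule.ker_liftQ_eq_bot _ _ _ le_rfl), fun φ => by
      obtain ⟨x, hx⟩ := hsurj φ
      exact ⟨M.mkQ x, hx⟩⟩
  let e := LinearEquiv.ofBijective rbar hbij
  have hcont : Continuous rbar :=
    isQuotientMap_quot_mk.continuous_iff.2 r.continuous
  let eC : (X ⧸ M) ≃L[𝕜] StrongDual 𝕜 Y := e.toContinuousLinearEquivOfContinuous hcont
  refine ⟨M, hMc, eC.symm.surjective.denseRange.separableSpace eC.symm.continuous, fun hfin => ?_⟩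
  have : FiniteDimensional 𝕜 (StrongDual 𝕜 Y) := eC.toLinearEquiv.finiteDimensional
  exact hYinf finiteDimensional_of_dual

/-- Main theorem, for a given separable space of functionals. -/
theorem hasSQ_of_generated_aux.{u, v, w} {𝕜 : Type v} [RCLike 𝕜] {X : Type u} [NormedAddCommGroup X]
    [NormedSpace 𝕜 X] [CompleteSpace X] {Y : Type w} [NormedAddCommGroup Y] [NormedSpace 𝕜 Y]
    [SeparableSpace Y] (hYinf : ¬ FiniteDimensional 𝕜 Y) (J : Y →L[𝕜] StrongDual 𝕜 X)
    (hJn : ∀ y : Y, ‖J y‖ = ‖y‖) (𝒦 : Set (Set X))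
    (hcard : #𝒦 < Cardinal.lift.{u} pNumber) (hK : ∀ K ∈ 𝒦, IsWeaklyCompact 𝕜 K)
    (hdense : (Submodule.span 𝕜 (⋃₀ 𝒦)).topologicalClosure = ⊤) : HasSQ 𝕜 X := by
  classical
  let d : ℕ → Y := denseSeq Y
  let A : Set X → Set ℕ := fun K => {j | ∀ x ∈ K, ‖J (d j) x‖ ≤ 1}
  let B : ℕ → Set ℕ := fun m => {j | (m : ℝ) ≤ ‖d j‖}
  let F : Set (Set ℕ) := A '' 𝒦 ∪ Set.range B
  have hF : #F < pNumber := by
    refine (mk_union_le _ _).trans_lt (add_lt_of_lt aleph0_lt_pNumber.le ?_ ?_)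
    · have h1 : Cardinal.lift.{u} #(A '' 𝒦) ≤ Cardinal.lift.{0} #𝒦 := mk_image_le_lift
      rw [Cardinal.lift_uzero] at h1
      exact Cardinal.lift_lt.1 (h1.trans_lt hcard)
    · exact lt_of_le_of_lt (le_aleph0_iff_set_countable.2 (Set.countable_range B)) aleph0_lt_pNumber
  by_cases hI : HasInfiniteFiniteInters F
  · obtain ⟨P, hP, hPF⟩ := hasPseudoIntersection_of_lt hF hI
    let k : ℕ → ℕ := Nat.nth (· ∈ P)
    have hkinj : Function.Injective k := (Nat.nth_strictMono hP).injective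
    have hkP : ∀ n, k n ∈ P := Nat.nth_mem_of_infinite hP
    have hev : ∀ S ∈ F, ∀ᶠ n in atTop, k n ∈ S := by
      intro S hS
      rw [← Nat.cofinite_eq_atTop, eventually_cofinite]
      exact ((hPF S hS).preimage hkinj.injOn).subset fun n hn => ⟨hkP n, hn⟩
    let E : Submodule 𝕜 X :=
      { carrier := {x | ∃ C, ∀ n, ‖J (d (k n)) x‖ ≤ C}
        add_mem' := by
          rintro a b ⟨C, hC⟩ ⟨C', hC'⟩
          exact ⟨C + C', fun n => by rw [map_add]; exact (norm_add_le _ _).trans (add_le_add (hC n) (hC' n))⟩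
        zero_mem' := ⟨0, fun n => by simp⟩
        smul_mem' := by
          rintro c a ⟨C, hC⟩
          exact ⟨‖c‖ * C, fun n => by
            rw [map_smul, norm_smul]; exact mul_le_mul_of_nonneg_left (hC n) (norm_nonneg _)⟩ }
    have hE : Dense (E : Set X) := by
      have h1 : Submodule.span 𝕜 (⋃₀ 𝒦) ≤ E := by
        rw [Submodule.span_le]
        rintro x ⟨K, hKm, hx⟩
        obtain ⟨N, hN⟩ := eventually_atTop.1 (hev (A K) (Or.inl ⟨K, hKm, rfl⟩))
        refine ⟨1 + ∑ n ∈ Finset.range N, ‖J (d (k n)) x‖, fun n => ?_⟩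
        rcases lt_or_ge n N with hlt | hge
        · have h2 := Finset.single_le_sum (f := fun i => ‖J (d (k i)) x‖)
            (fun i _ => norm_nonneg _) (Finset.mem_range.2 hlt)
          linarith
        · have h2 : 0 ≤ ∑ n ∈ Finset.range N, ‖J (d (k n)) x‖ :=
            Finset.sum_nonneg fun i _ => norm_nonneg _
          linarith [hN n hge x hx]
      have h3 : Dense (Submodule.span 𝕜 (⋃₀ 𝒦) : Set X) := by
        rw [Submodule.dense_iff_topologicalClosure_eq_top]; exact hdense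
      exact h3.mono h1
    refine hasSQ_of_unbounded (fun n => J (d (k n))) ?_ E hE fun x hx => hx
    rw [tendsto_atTop_atTop]
    intro b
    obtain ⟨m, hm⟩ := exists_nat_ge b
    obtain ⟨N, hN⟩ := eventually_atTop.1 (hev (B m) (Or.inr ⟨m, rfl⟩))
    exact ⟨N, fun n hn => hm.trans (by rw [hJn]; exact hN n hn)⟩
  · -- some finite subfamily is norming
    simp only [HasInfiniteFiniteInters, not_forall, Set.not_infinite] at hI
    obtain ⟨G, hG, hfin⟩ := hI
    let 𝒢 : Set (Set X) := {K | K ∈ 𝒦 ∧ A K ∈ G}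
    have hchoice : ∀ S ∈ G, (∃ K ∈ 𝒦, A K = S) ∨ ∃ m, B m = S := fun S hS => hG hS
    -- a finite selection of weakly compact sets
    let sel : Set ℕ → Set X := fun S => if h : ∃ K ∈ 𝒦, A K = S then h.choose else ∅
    let K₀ : Set X := insert 0 (⋃ S ∈ G, sel S)
    have hselK : ∀ S, IsWeaklyCompact 𝕜 (sel S) := by
      intro S
      by_cases h : ∃ K ∈ 𝒦, A K = S
      · simp only [sel, dif_pos h]; exact hK _ h.choose_spec.1
      · simp [sel, dif_neg h, IsWeaklyCompact]
    have hK₀ : IsWeaklyCompact 𝕜 K₀ := by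
      simp only [IsWeaklyCompact, K₀, Set.image_insert_eq, Set.image_iUnion]
      exact (G.isCompact_biUnion fun S _ => hselK S).insert _
    obtain ⟨N, hN⟩ := hfin.bddAbove
    let m₀ : ℕ := G.sum (fun S => if h : ∃ m, B m = S then h.choose else 0)
    obtain ⟨M₀, hM₀⟩ : ∃ M₀ : ℝ, ∀ j ≤ N, ‖d j‖ ≤ M₀ := by
      refine ⟨∑ i ∈ Finset.range (N + 1), ‖d i‖, fun j hj => ?_⟩
      exact Finset.single_le_sum (f := fun i => ‖d i‖) (fun i _ => norm_nonneg (d i))
        (Finset.mem_range.2 (by omega))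
    set L : ℝ := max (m₀ : ℝ) M₀ + 1
    have hbig : ∀ j, L ≤ ‖d j‖ → ∃ x ∈ K₀, 1 < ‖J (d j) x‖ := by
      intro j hj
      by_contra hcon
      push Not at hcon
      have hjG : j ∈ ⋂ S ∈ G, S := by
        simp only [Set.mem_iInter]
        intro S hS
        by_cases hA : ∃ K ∈ 𝒦, A K = S
        · rw [← hA.choose_spec.2]
          intro x hx
          refine hcon x (Set.mem_insert_of_mem _ (Set.mem_iUnion₂.2 ⟨S, hS, ?_⟩))
          simpa only [sel, dif_pos hA] using hx
        · have hB : ∃ m, B m = S := (hchoice S hS).resolve_left hA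
          rw [← hB.choose_spec]
          have h1 : hB.choose ≤ m₀ := by
            refine le_trans (le_of_eq ?_) (Finset.single_le_sum
              (f := fun S => if h : ∃ m, B m = S then h.choose else 0) (fun _ _ => Nat.zero_le _) hS)
            simp only [dif_pos hB]
          have h2 : (hB.choose : ℝ) ≤ m₀ := by exact_mod_cast h1
          have h3 : (hB.choose : ℝ) ≤ ‖d j‖ := by
            linarith [le_max_left (m₀ : ℝ) M₀]
          exact h3
      linarith [hM₀ j (hN hjG), le_max_right (m₀ : ℝ) M₀]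
    have hL : 1 ≤ L := by
      have : (0 : ℝ) ≤ max (m₀ : ℝ) M₀ := le_max_of_le_left (Nat.cast_nonneg _)
      linarith
    obtain ⟨R, hR0, hR⟩ := hK₀.exists_bound
    refine hasSQ_of_norming (θ := 1 / (2 * (L + 1))) hYinf J hK₀ ⟨0, Set.mem_insert _ _⟩
      (by positivity) fun y c hc => ?_
    rcases eq_or_ne y 0 with rfl | hy
    · simpa using hc 0 (Set.mem_insert _ _)
    have hy' : (0 : ℝ) < ‖y‖ := by simpa using hy
    set t : ℝ := (L + 1) / ‖y‖
    have ht : 0 < t := by positivity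
    set δ : ℝ := 1 / (2 * (R + 1)) with hδ
    have hδ0 : 0 < δ := by positivity
    obtain ⟨j, hj⟩ := (denseRange_denseSeq Y).exists_dist_lt ((t : 𝕜) • y) hδ0
    rw [dist_eq_norm] at hj
    have hn : ‖(t : 𝕜) • y‖ = L + 1 := by
      rw [norm_smul, RCLike.norm_ofReal, abs_of_pos ht, div_mul_cancel₀ _ hy'.ne']
    have hδ1 : δ ≤ 1 := by
      rw [hδ, div_le_one (by positivity)]; linarith
    have hdj : L ≤ ‖d j‖ := by
      have h4 : ‖(t : 𝕜) • y‖ ≤ ‖(t : 𝕜) • y - d j‖ + ‖d j‖ := by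
        simpa using norm_add_le ((t : 𝕜) • y - d j) (d j)
      have : ‖(t : 𝕜) • y - d j‖ < δ := hj
      linarith
    obtain ⟨x, hx, h1⟩ := hbig j hdj
    have h2 : ‖J ((t : 𝕜) • y - d j) x‖ ≤ 1 / 2 := by
      refine ((J _).le_opNorm x).trans ?_
      rw [hJn]
      calc ‖(t : 𝕜) • y - d j‖ * ‖x‖ ≤ δ * (R + 1) :=
            mul_le_mul hj.le ((hR x hx).trans (by linarith)) (norm_nonneg _) hδ0.le
        _ = 1 / 2 := by rw [hδ]; field_simp
    have h3 : 1 / 2 ≤ t * c := by
      have e : J (d j) x = (t : 𝕜) * J y x - J ((t : 𝕜) • y - d j) x := by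
        simp [map_sub, map_smul]
      have h4 : ‖J (d j) x‖ ≤ t * ‖J y x‖ + 1 / 2 := by
        rw [e]
        refine (norm_sub_le _ _).trans (add_le_add ?_ h2)
        rw [norm_mul, RCLike.norm_ofReal, abs_of_pos ht]
      nlinarith [hc x hx]
    rw [div_mul_eq_mul_div, one_mul, div_le_iff₀ (by positivity)]
    have h5 : ‖y‖ * (t * c) = (L + 1) * c := by
      rw [← mul_assoc, mul_comm ‖y‖ t, div_mul_cancel₀ _ hy'.ne']
    nlinarith

/-- Main theorem. -/
theorem hasSQ_of_generated.{u, v} {𝕜 : Type v} [RCLike 𝕜] {X : Type u} [NormedAddCommGroup X]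
    [NormedSpace 𝕜 X] [CompleteSpace X] (hinf : ¬ FiniteDimensional 𝕜 X) (𝒦 : Set (Set X))
    (hcard : #𝒦 < Cardinal.lift.{u} pNumber) (hK : ∀ K ∈ 𝒦, IsWeaklyCompact 𝕜 K)
    (hdense : (Submodule.span 𝕜 (⋃₀ 𝒦)).topologicalClosure = ⊤) : HasSQ 𝕜 X := by
  obtain ⟨Y, hYsep, hYinf⟩ := exists_separable_subspace hinf
  exact hasSQ_of_generated_aux (Y := Y) hYinf Y.subtypeL (fun y => rfl) 𝒦 hcard hK hdense

end Vale.Agent.P129
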